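import Vale.Agent.P109.OV.Defs

/-! Interface between the smooth side and the symbolic side. -/

open MeasureTheory Set
open scoped ENNReal

namespace Vale.Agent.P109.OV

/-- A family of laws on names: for complexity `N`, precision `B`, length `n`. -/
abbrev Family (A : Type) [MeasurableSpace A] : Type := ℕ → ℕ → (n : ℕ) → Set (Measure (Fin n → A))

/-- the family is small and consists of sub-probability laws -/
def SmallFamily {A : Type} [MeasurableSpace A] (Fam : Family A) : Prop :=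
  (∀ N B n, ∀ L ∈ Fam N B n, L univ ≤ 1) ∧
  ∀ N, ∃ c : ℕ, ∀ B n, (Fam N B n).Finite ∧ (Fam N B n).ncard ≤ 2 ^ ((B + n + 2) ^ c * 2 ^ (B / 2))

/-- `(M, ν, S)` is predictable by the family `Fam` (see blueprint, section 3, INTERFACE).
The condition `(C / (ε' * ρ)) ^ 2 ≤ 2 ^ j` is the uniform form of `for all large j`. -/
def Predictable {A : Type} [MeasurableSpace A] (Fam : Family A)
    {M : Type} [MeasurableSpace M] (ν : Measure M) (S : M → M) : Prop :=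
  ∀ β : M → A, Measurable β → ∀ ε : ℝ, 0 < ε →
    ∃ α : M → A, Measurable α ∧ ν {z | α z ≠ β z} ≤ ENNReal.ofReal ε ∧
    ∃ (N : ℕ) (C : ℝ), 0 < C ∧ ∀ ρ ε' : ℝ, 0 < ρ → ρ ≤ 1 → 0 < ε' → ε' ≤ 1 →
      ∃ Bad : Finset ℕ, (Bad.card : ℝ) ≤ C / (ε' * ρ ^ 2) ∧
        ∀ j, (C / (ε' * ρ)) ^ 2 ≤ 2 ^ j → j ∉ Bad → ∀ B : ℕ, ρ * 2 ^ j ≤ B →
          ∃ L ∈ Fam N B (2 ^ (j + 1)), ∃ G : Set M, MeasurableSet G ∧
            (∀ Z : Set M, MeasurableSet Z →
              (∀ i < 2 ^ (j + 1), ∀ i' < 2 ^ (j + 1), i ≠ i' →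
                Disjoint (S^[i] ⁻¹' Z) (S^[i'] ⁻¹' Z)) →
              (2 ^ (j + 1) : ℝ≥0∞) * ν (Z \ G) ≤ ENNReal.ofReal ε') ∧
            ∀ s : Set (Fin (2 ^ (j + 1)) → A),
              ν (G ∩ {z | name S α (2 ^ (j + 1)) z ∈ s}) ≤ 2 * L s

end Vale.Agent.P109.OV
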