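import Mathlib

/-! Basic sequence notions for the smooth side (orbits, bounded splitting). -/

open Set Metric

namespace Vale.Agent.P109.OV

/-- Euclidean space of dimension `d`. -/
abbrev Eu (d : ℕ) : Type := EuclideanSpace ℝ (Fin d)

/-- non-autonomous orbit -/
def orb {E : Type} (f : ℕ → E → E) : ℕ → E → E
  | 0, z => z
  | (t + 1), z => f t (orb f t z)

/-- Bounded splitting, existential form: an impulse `v` at any time `τ + 1 ∈ [1, n]` admits a
solution of the linear recursion on `[0, n]` which is bounded by `K * ‖v‖`. -/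
def GoodSeq {E : Type} [NormedAddCommGroup E] [NormedSpace ℝ E] (n : ℕ) (D : ℕ → E →L[ℝ] E)
    (K : ℝ) : Prop :=
  ∀ τ < n, ∀ v : E, ∃ x : ℕ → E,
    (∀ t < n, x (t + 1) = D t (x t) + if t = τ then v else 0) ∧ ∀ t ≤ n, ‖x t‖ ≤ K * ‖v‖

/-- Green operators: linear form of `GoodSeq` (stronger). `X τ t` is the response at time `t` to
an impulse which enters at time `τ + 1`. -/
def GoodOp {E : Type} [NormedAddCommGroup E] [NormedSpace ℝ E] (n : ℕ) (D : ℕ → E →L[ℝ] E)
    (K : ℝ) : Prop :=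
  ∃ X : ℕ → ℕ → (E →L[ℝ] E), ∀ τ < n,
    (∀ t < n, X τ (t + 1) = (D t).comp (X τ t) +
      if t = τ then ContinuousLinearMap.id ℝ E else 0) ∧ ∀ t ≤ n, ‖X τ t‖ ≤ K

theorem GoodOp.goodSeq {E : Type} [NormedAddCommGroup E] [NormedSpace ℝ E] {n : ℕ}
    {D : ℕ → E →L[ℝ] E} {K : ℝ} (h : GoodOp n D K) : GoodSeq n D K := by
  obtain ⟨X, hX⟩ := h
  intro τ hτ v
  refine ⟨fun t => X τ t v, fun t ht => ?_, fun t ht => ?_⟩
  · show (X τ (t + 1)) v = _
    rw [(hX τ hτ).1 t ht]
    by_cases h : t = τ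
    · rw [if_pos h, if_pos h]; rfl
    · rw [if_neg h, if_neg h]; rfl
  · exact (ContinuousLinearMap.le_opNorm _ _).trans
      (mul_le_mul_of_nonneg_right ((hX τ hτ).2 t ht) (norm_nonneg _))

end Vale.Agent.P109.OV
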