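import Vale.Agent.P109.OV.Interface
import Vale.Agent.P109.OV.Seq

/-! Chart systems of complexity `N` (blueprint 3.4). -/

open MeasureTheory Set Metric
open scoped ENNReal

namespace Vale.Agent.P109.OV

/-- open chart image: ball of radius `3`, intersected with `{0 < x₀}` if `half` -/
def Om (d : ℕ) (half : Bool) : Set (Eu d) :=
  {x | ‖x‖ < 3 ∧ (half = true → ∀ i : Fin d, i.1 = 0 → 0 < x i)}

/-- chart image including the flat boundary -/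
def OmC (d : ℕ) (half : Bool) : Set (Eu d) :=
  {x | ‖x‖ < 3 ∧ (half = true → ∀ i : Fin d, i.1 = 0 → 0 ≤ x i)}

/-- A chart system of complexity `N` for `(M, ν, S)` and the finite coding `α`. -/
structure ChartSys {M A : Type} [MeasurableSpace M] (ν : Measure M) (S : M → M) (α : M → A)
    (d N : ℕ) where
  hN : 1 ≤ N
  half : Fin N → Bool
  /-- coordinates -/
  φ : Fin N → M → Eu d
  /-- inverse charts -/
  ψ : Fin N → Eu d → M
  hφ : ∀ i, Measurable (φ i)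
  hψ : ∀ i, Measurable (ψ i)
  hφψ : ∀ i, ∀ x ∈ OmC d (half i), φ i (ψ i x) = x
  /-- densities -/
  dens : Fin N → Eu d → ℝ
  hdens : ∀ i, ∀ x ∈ Om d (half i), (N : ℝ)⁻¹ ≤ dens i x ∧ dens i x ≤ N
  hdensLip : ∀ i, ∀ x ∈ Om d (half i), ∀ y ∈ Om d (half i), |dens i x - dens i y| ≤ N * ‖x - y‖
  hν : ∀ i, ∀ s ⊆ Om d (half i), MeasurableSet s →
    MeasurableSet (ψ i '' s) ∧ ν (ψ i '' s) = ∫⁻ x in s, ENNReal.ofReal (dens i x)
  /-- decision functions and thresholds -/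
  g : Fin N → M → ℝ
  θ : Fin N → ℝ
  hg : ∀ l, Measurable (g l)
  hgb : ∀ l z, |g l z| ≤ N
  hθb : ∀ l, |θ l| ≤ N
  hgLip : ∀ i l, ∀ x ∈ Om d (half i), ∀ y ∈ Om d (half i),
    |g l (ψ i x) - g l (ψ i y)| ≤ N * ‖x - y‖
  hreg : ∀ l, ∀ t : ℝ, 0 < t → ν {z | |g l z - θ l| ≤ t} ≤ ENNReal.ofReal (N * t)
  /-- chart index and letter are functions of the decisions -/
  lab : (Fin N → Bool) → Fin N × A
  hα : ∀ z, α z = (lab (fun l => decide (θ l < g l z))).2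
  /-- pieces lie in chart cores -/
  hpiece : ∀ᵐ z ∂ν, ∀ i, i = (lab (fun l => decide (θ l < g l z))).1 →
    φ i z ∈ Om d (half i) ∧ ‖φ i z‖ ≤ 2 ∧ ψ i (φ i z) = z
  hbd : ∀ t : ℝ, 0 < t →
    ν {z | ∃ y ∉ Om d (half (lab (fun l => decide (θ l < g l z))).1),
      ‖y - φ (lab (fun l => decide (θ l < g l z))).1 z‖ ≤ t} ≤ ENNReal.ofReal (N * t)
  /-- local maps: defined, smooth and bounded on balls of radius `1 / N` -/
  hloc : ∀ᵐ z ∂ν, ∀ i i', i = (lab (fun l => decide (θ l < g l z))).1 →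
    i' = (lab (fun l => decide (θ l < g l (S z)))).1 →
    (∀ x ∈ ball (φ i z) (N : ℝ)⁻¹ ∩ Om d (half i),
      φ i' (S (ψ i x)) ∈ OmC d (half i') ∧ ψ i' (φ i' (S (ψ i x))) = S (ψ i x)) ∧
    ContDiffOn ℝ (2 * d + 4) (fun x => φ i' (S (ψ i x))) (ball (φ i z) (N : ℝ)⁻¹ ∩ Om d (half i)) ∧
    ∀ x ∈ ball (φ i z) (N : ℝ)⁻¹ ∩ Om d (half i),
      (∀ m ≤ 2 * d + 4, ‖iteratedFDeriv ℝ m (fun x => φ i' (S (ψ i x))) x‖ ≤ N) ∧
      ∀ v, ‖v‖ ≤ N * ‖fderiv ℝ (fun x => φ i' (S (ψ i x))) x v‖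

end Vale.Agent.P109.OV
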