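import Mathlib

/-! Definitions used by the final statement: isomorphism mod 0, entropy, smooth models. -/

open MeasureTheory Set
open scoped ContDiff Manifold ENNReal

namespace Vale.Agent.P109.OV

/-- Isomorphism modulo null sets: a bijection between invariant conull measurable sets,
measurable with measurable inverse, carrying `μ` to `ν` and intertwining `T` and `S`. -/
def IsoMod0 {X Y : Type} [MeasurableSpace X] [MeasurableSpace Y]
    (μ : Measure X) (T : X → X) (ν : Measure Y) (S : Y → Y) : Prop :=
  ∃ (X₀ : Set X) (Y₀ : Set Y), MeasurableSet X₀ ∧ MeasurableSet Y₀ ∧ μ X₀ᶜ = 0 ∧ ν Y₀ᶜ = 0 ∧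
    T ⁻¹' X₀ = X₀ ∧ S ⁻¹' Y₀ = Y₀ ∧
    ∃ F : X₀ ≃ᵐ Y₀, (∀ (x : X₀) (hx : T x ∈ X₀), ((F ⟨T x, hx⟩ : Y₀) : Y) = S (F x)) ∧
      (μ.comap ((↑) : X₀ → X)).map F = ν.comap ((↑) : Y₀ → Y)

/-- the name of length `n` of the point `x` with respect to the finite coding `f` -/
def name {X A : Type} (T : X → X) (f : X → A) (n : ℕ) (x : X) : Fin n → A :=
  fun i => f (T^[i] x)

/-- Shannon entropy (natural logarithm) of a map to a finite type. -/
noncomputable def shannon {X A : Type} [MeasurableSpace X] [Fintype A]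
    (μ : Measure X) (f : X → A) : ℝ :=
  ∑ a, Real.negMulLog (μ.real (f ⁻¹' {a}))

/-- Kolmogorov–Sinai entropy: supremum over finite measurable partitions of the exponential
growth rate of the entropy of the names. -/
noncomputable def ksEntropy {X : Type} [MeasurableSpace X] (μ : Measure X) (T : X → X) : ℝ≥0∞ :=
  ⨆ (k : ℕ) (f : X → Fin k) (_ : Measurable f),
    Filter.limsup (fun n : ℕ => ENNReal.ofReal (shannon μ (name T f n) / n)) Filter.atTop

section
variable {E H : Type} [NormedAddCommGroup E] [InnerProductSpace ℝ E] [FiniteDimensional ℝ E]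
  [MeasurableSpace E] [BorelSpace E] [TopologicalSpace H] (I : ModelWithCorners ℝ E H)

/-- `ν` is given in local coordinates by a density with respect to Lebesgue measure which is
smooth up to the boundary and strictly positive. -/
def SmoothPositiveVolume (M : Type) [TopologicalSpace M] [ChartedSpace H M] [MeasurableSpace M]
    (ν : Measure M) : Prop :=
  ∀ e ∈ atlas H M, ∃ ρ : E → ℝ, ContDiffOn ℝ ∞ ρ (e.extend I).target ∧
    (∀ x ∈ (e.extend I).target, 0 < ρ x) ∧
    (ν.restrict e.source).map (e.extend I) =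
      (volume.restrict (e.extend I).target).withDensity (fun x => ENNReal.ofReal (ρ x))

/-- `(X, μ, T)` has a smooth positive-volume model on a compact manifold modelled on `I`. -/
def HasModelOn {X : Type} [MeasurableSpace X] (μ : Measure X) (T : X → X) : Prop :=
  ∃ (M : Type) (_ : TopologicalSpace M) (_ : T2Space M) (_ : SecondCountableTopology M)
    (_ : CompactSpace M)
    (_ : ChartedSpace H M) (_ : IsManifold I ∞ M) (_ : MeasurableSpace M) (_ : BorelSpace M)
    (ν : Measure M) (S : M ≃ₘ^∞⟮I, I⟯ M),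
    IsProbabilityMeasure ν ∧ SmoothPositiveVolume I M ν ∧ MeasurePreserving S ν ν ∧
      IsoMod0 μ T ν S

end

/-- `(X, μ, T)` has a smooth positive-volume model: on a compact manifold of some dimension,
without boundary (`𝓡 d`) or with boundary (`𝓡∂ (d + 1)`). -/
def HasSmoothModel {X : Type} [MeasurableSpace X] (μ : Measure X) (T : X → X) : Prop :=
  (∃ d : ℕ, HasModelOn (𝓡 d) μ T) ∨ (∃ d : ℕ, HasModelOn (𝓡∂ (d + 1)) μ T)

end Vale.Agent.P109.OV
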